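import Mathlib.Analysis.InnerProductSpace.PiL2
import Mathlib.Topology.MetricSpace.Isometry
import Mathlib.Analysis.Real.Sqrt

/-! Definitions for P058 -/

namespace Vale.Agent.P058

/-- `A` is a finite nonempty set such that for every `r ≥ 2` there is `D ≥ 1` for which every
`r`-colouring of `ℝ^D` is constant on the image of `A` under some distance-preserving map. -/
def IsRamsey {d : ℕ} (A : Set (EuclideanSpace ℝ (Fin d))) : Prop :=
  A.Finite ∧ A.Nonempty ∧ ∀ r : ℕ, 2 ≤ r → ∃ D : ℕ, 1 ≤ D ∧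
    ∀ c : EuclideanSpace ℝ (Fin D) → Fin r,
      ∃ f : EuclideanSpace ℝ (Fin d) → EuclideanSpace ℝ (Fin D),
        (∀ x ∈ A, ∀ y ∈ A, dist (f x) (f y) = dist x y) ∧ ∃ col : Fin r, ∀ x ∈ A, c (f x) = col

/-- The isometries of the ambient space mapping `X` onto itself act transitively on `X`. -/
def IsTransitiveSet {n : ℕ} (X : Set (EuclideanSpace ℝ (Fin n))) : Prop :=
  ∀ x ∈ X, ∀ y ∈ X, ∃ g : EuclideanSpace ℝ (Fin n) ≃ᵢ EuclideanSpace ℝ (Fin n),
    g '' X = X ∧ g x = y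

/-- `A` is congruent to a subset of a finite transitive set in some `ℝ^n`. -/
def IsSubtransitive {d : ℕ} (A : Set (EuclideanSpace ℝ (Fin d))) : Prop :=
  ∃ (n : ℕ) (X : Set (EuclideanSpace ℝ (Fin n))), X.Finite ∧ IsTransitiveSet X ∧
    ∃ f : EuclideanSpace ℝ (Fin d) → EuclideanSpace ℝ (Fin n),
      (∀ x ∈ A, ∀ y ∈ A, dist (f x) (f y) = dist x y) ∧ ∀ x ∈ A, f x ∈ X

/-- The cyclic kite with vertices `(1,0)`, `(-1,0)`, `(a,√(1-a²))`, `(a,-√(1-a²))`. -/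
noncomputable def kite (a : ℝ) : Set (EuclideanSpace ℝ (Fin 2)) :=
  {!₂[1, 0], !₂[-1, 0], !₂[a, Real.sqrt (1 - a ^ 2)], !₂[a, -Real.sqrt (1 - a ^ 2)]}

end Vale.Agent.P058
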