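import Mathlib

/-! Sign-flip invariance: for every finite list of magnitudes there is an isometric copy on which a
given colouring is invariant under changing signs of coordinates. -/

namespace Vale.Agent.P058

/-- squared Euclidean distance on a finite product -/
def sd {ι : Type} [Fintype ι] (x y : ι → ℝ) : ℝ := ∑ i, (x i - y i) ^ 2

def Flip1 (L : List ℝ) : Prop :=
  ∀ (κ : Type), Finite κ → ∃ (D : Type) (_ : Fintype D) (I : Type) (_ : Finite I)
    (ψ : I → ℝ → D → ℝ), (∀ i x y, sd (ψ i x) (ψ i y) = (x - y) ^ 2) ∧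
      ∀ c : (D → ℝ) → κ, ∃ i, ∀ x ∈ L, c (ψ i x) = c (ψ i (-x))

def FlipN (q : ℕ) (L : List ℝ) (V : Finset ℝ) : Prop :=
  ∀ (κ : Type), Finite κ → ∃ (D : Type) (_ : Fintype D) (I : Type) (_ : Finite I)
    (ψ : I → (Fin q → ℝ) → D → ℝ), (∀ i x y, sd (ψ i x) (ψ i y) = sd x y) ∧
      ∀ c : (D → ℝ) → κ, ∃ i, ∀ y : Fin q → ℝ, (∀ k, y k ∈ V) → ∀ k, y k ∈ L →
        c (ψ i (Function.update y k (-y k))) = c (ψ i y)

theorem sd_elim {α β : Type} [Fintype α] [Fintype β] (a a' : α → ℝ) (b b' : β → ℝ) :
    sd (Sum.elim a b) (Sum.elim a' b') = sd a a' + sd b b' := by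
  simp [sd, Fintype.sum_sum_type]

theorem flipN_of_flip1 {L : List ℝ} (h : Flip1 L) (V : Finset ℝ) : ∀ q, FlipN q L V := by
  intro q
  induction q with
  | zero =>
    intro κ _
    exact ⟨PEmpty, inferInstance, Unit, inferInstance, fun _ _ d => d.elim,
      fun i x y => by simp [sd], fun c => ⟨(), fun y _ k => k.elim0⟩⟩
  | succ q ih =>
    intro κ hκ
    obtain ⟨D1, f1, I1, fi1, ψ1, iso1, col1⟩ := h ((Fin q → V) → κ) inferInstance
    obtain ⟨D2, f2, I2, fi2, ψ2, iso2, col2⟩ := ih (I1 × V → κ) inferInstance
    refine ⟨D1 ⊕ D2, inferInstance, I1 × I2, inferInstance,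
      fun i y => Sum.elim (ψ1 i.1 (y 0)) (ψ2 i.2 (Fin.tail y)), ?_, ?_⟩
    · intro i x y
      rw [sd_elim, iso1, iso2]
      simp [sd, Fin.sum_univ_succ, Fin.tail]
    · intro c
      obtain ⟨i2, hi2⟩ := col2 (fun w p => c (Sum.elim (ψ1 p.1 p.2) w))
      obtain ⟨i1, hi1⟩ := col1 (fun z v => c (Sum.elim z (ψ2 i2 (fun k => (v k : ℝ)))))
      refine ⟨(i1, i2), fun y hy k hk => ?_⟩
      refine Fin.cases ?_ ?_ k hk
      · intro hk0
        have := congrFun (hi1 (y 0) hk0) (fun j => ⟨y j.succ, hy _⟩)
        simp only [Fin.tail_update_zero, Function.update_self]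
        exact this.symm
      · intro j hj
        have := congrFun (hi2 (Fin.tail y) (fun j => hy _) j hj) (i1, ⟨y 0, hy 0⟩)
        simp only [Fin.tail_update_succ]
        rw [Function.update_of_ne (Fin.succ_ne_zero j).symm]
        exact this

/-- the two-slot vector -/
noncomputable def slot {Q : ℕ} (a : ℝ) (p q : Fin Q) (x : ℝ) : Fin Q → ℝ :=
  fun k => if k = p then x / Real.sqrt 2 else if k = q then -x / Real.sqrt 2 else -a / Real.sqrt 2

theorem sd_slot {Q : ℕ} (a : ℝ) {p q : Fin Q} (hpq : p ≠ q) (x y : ℝ) :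
    sd (slot a p q x) (slot a p q y) = (x - y) ^ 2 := by
  have h2 : Real.sqrt 2 ^ 2 = 2 := Real.sq_sqrt (by norm_num)
  have : ∀ k, (slot a p q x k - slot a p q y k) ^ 2 =
      (if k = p then (x - y) ^ 2 / 2 else 0) + (if k = q then (x - y) ^ 2 / 2 else 0) := by
    intro k
    unfold slot
    split_ifs with h1 h3
    · exact absurd (h1.symm.trans h3) hpq
    · rw [← sub_div, div_pow, h2]; ring
    · rw [← sub_div, div_pow, h2]; ring
    · simp
  rw [sd, Finset.sum_congr rfl (fun k _ => this k), Finset.sum_add_distrib]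
  simp

theorem flip1 : ∀ L : List ℝ, Flip1 L := by
  suffices H : ∀ n, ∀ L : List ℝ, L.length = n → Flip1 L from fun L => H _ L rfl
  intro n
  induction n with
  | zero =>
    intro L hL κ _
    exact ⟨Unit, inferInstance, Unit, inferInstance, fun _ x _ => x,
      fun i x y => by simp [sd], fun c => ⟨(), by simp [List.length_eq_zero_iff.1 hL]⟩⟩
  | succ n ih =>
    intro L hL κ hκ
    match L, hL with
    | a :: L, hL =>
      have := hκ
      let s := Real.sqrt 2
      let L' := L.map (fun x => x / s)
      let V : Finset ℝ := L'.toFinset ∪ (L'.map (fun x => -x)).toFinset ∪ {a / s, -a / s}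
      have hL' : Flip1 L' := ih L' (by simp [L'] at hL ⊢; omega)
      obtain ⟨D, fD, I, fI, ψ, iso, col⟩ := flipN_of_flip1 hL' V (Nat.card κ + 1) κ hκ
      let Q := Nat.card κ + 1
      refine ⟨D, fD, I × {p : Fin Q × Fin Q // p.1 ≠ p.2}, inferInstance,
        fun i x => ψ i.1 (slot a i.2.1.1 i.2.1.2 x), ?_, ?_⟩
      · intro i x y
        rw [iso, sd_slot a i.2.2]
      · intro c
        obtain ⟨i, hi⟩ := col c
        let R : Fin Q → Fin Q → ℝ := fun p k => if k = p then a / s else -a / s
        have : Fintype κ := Fintype.ofFinite κ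
        obtain ⟨p, q, hpq, heq⟩ := Fintype.exists_ne_map_eq_of_card_lt (fun p => c (ψ i (R p)))
          (by simp [Q, Nat.card_eq_fintype_card])
        refine ⟨(i, ⟨(p, q), hpq⟩), fun x hx => ?_⟩
        show c (ψ i (slot a p q x)) = c (ψ i (slot a p q (-x)))
        rcases List.mem_cons.1 hx with rfl | hx
        · have e1 : slot x p q x = R p := by
            funext k; simp only [slot, R, s]; split_ifs <;> rfl
          have e2 : slot x p q (-x) = R q := by
            funext k; simp only [slot, R, s]
            split_ifs with h1 h2 <;> simp_all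
          rw [e1, e2]; exact heq
        · have hxL : x / s ∈ L' := List.mem_map.2 ⟨x, hx, rfl⟩
          have hm : x / s ∈ V ∧ -(x / s) ∈ V ∧ a / s ∈ V ∧ -a / s ∈ V := by
            refine ⟨?_, ?_, ?_, ?_⟩ <;> simp only [V, Finset.mem_union, List.mem_toFinset,
              Finset.mem_insert, Finset.mem_singleton, List.mem_map]
            · exact Or.inl (Or.inl hxL)
            · exact Or.inl (Or.inr ⟨_, hxL, rfl⟩)
            · simp
            · simp
          let y : Fin Q → ℝ := fun k => if k = p then x / s else if k = q then x / s else -a / s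
          have hy : ∀ k, y k ∈ V := by
            intro k; simp only [y]; split_ifs <;> tauto
          have e1 : slot a p q x = Function.update y q (-y q) := by
            funext k
            simp only [slot, y, Function.update_apply, s]
            split_ifs <;> simp_all [neg_div]
          have e2 : slot a p q (-x) = Function.update y p (-y p) := by
            funext k
            simp only [slot, y, Function.update_apply, s]
            split_ifs <;> simp_all [neg_div]
          rw [e1, e2, hi y hy q (by simpa [y, hpq.symm] using hxL),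
            hi y hy p (by simpa [y] using hxL)]

/-- invariance under changing any set of signs -/
theorem signInvariant (q : ℕ) (V : Finset ℝ) (κ : Type) [Finite κ] :
    ∃ (D : Type) (_ : Fintype D) (I : Type) (_ : Finite I) (ψ : I → (Fin q → ℝ) → D → ℝ),
      (∀ i x y, sd (ψ i x) (ψ i y) = sd x y) ∧
      ∀ c : (D → ℝ) → κ, ∃ i, ∀ y z : Fin q → ℝ, (∀ k, y k ∈ V) → (∀ k, |z k| = |y k|) →
        c (ψ i z) = c (ψ i y) := by
  classical
  let W : Finset ℝ := V ∪ V.image (fun x => -x)
  obtain ⟨D, fD, I, fI, ψ, iso, col⟩ :=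
    flipN_of_flip1 (flip1 W.toList) W q κ inferInstance
  refine ⟨D, fD, I, fI, ψ, iso, fun c => ?_⟩
  obtain ⟨i, hi⟩ := col c
  refine ⟨i, ?_⟩
  intro y z hy hz
  have key : ∀ S : Finset (Fin q),
      c (ψ i (fun k => if k ∈ S then z k else y k)) = c (ψ i y) := by
    intro S
    induction S using Finset.induction_on with
    | empty => simp
    | insert k S hk ih =>
      let w : Fin q → ℝ := fun j => if j ∈ S then z j else y j
      have hw : ∀ j, w j ∈ W := by
        intro j
        simp only [w]; split_ifs
        · rcases abs_eq_abs.1 (hz j) with h | h <;> simp [W, h, hy j]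
        · simp [W, hy j]
      rcases abs_eq_abs.1 (hz k) with h | h
      · convert ih using 4 with j
        by_cases hj : j = k
        · subst hj; simp [hk, h]
        · simp [hj]
      · rw [← ih, ← hi w hw k (Finset.mem_toList.2 (hw k))]
        congr 2
        funext j
        by_cases hj : j = k
        · subst hj; simp [w, hk, h]
        · simp [w, hj]
  simpa using key Finset.univ

end Vale.Agent.P058
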