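import Mathlib

/-! The sequences `f j` used to show that kites are Ramsey. -/

namespace Vale.Agent.P058

variable (r N : ℕ)

def cls (q : ℕ) : ℕ := min (q / r - 1) (N + 1)

def len (j : ℕ) : ℕ := (2 + N + j) * r

/-- sequence number `j` -/
noncomputable def pat (a : ℝ) (j q : ℕ) : ℝ :=
  if q < j then Real.sqrt (1 - r * (a ^ (N + 1)) ^ 2)
  else if q < len r N j then a ^ cls r N q else 0

/-- the placement of sequence `i` into sequence `k` -/
def shiftMap (L i k q : ℕ) : ℕ :=
  if q < i then q else if q < r then q + (k - i) else if q < len r N i then q + r else q + L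

theorem cls_lt_two {q : ℕ} (hq : q < 2 * r) : cls r N q = 0 := by
  have : q / r < 2 := Nat.div_lt_of_lt_mul (by linarith)
  unfold cls
  omega

theorem cls_shift_sel {q : ℕ} (hr : 0 < r) (h1 : r ≤ q) (h2 : q < (2 + N) * r) :
    cls r N (q + r) = cls r N q + 1 := by
  have a1 : 1 ≤ q / r := (Nat.one_le_div_iff hr).2 h1
  have a2 : q / r < 2 + N := Nat.div_lt_of_lt_mul (by linarith)
  have a3 : (q + r) / r = q / r + 1 := Nat.add_div_right q hr
  unfold cls
  omega

theorem cls_top {q : ℕ} (hr : 0 < r) (h2 : (2 + N) * r ≤ q) : cls r N q = N + 1 := by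
  have a2 : 2 + N ≤ q / r := (Nat.le_div_iff_mul_le hr).2 h2
  unfold cls
  omega

theorem len_mono {i j : ℕ} (h : i ≤ j) : len r N i ≤ len r N j :=
  Nat.mul_le_mul_right r (by omega)

theorem len_add (j : ℕ) : len r N j = (2 + N) * r + j * r := by
  unfold len; ring

variable {r N}

theorem shiftMap_strictMono {i k : ℕ} (hik : i < k) (hk : k ≤ r) :
    StrictMono (shiftMap r N (len r N r) i k) := by
  have h1 : r ≤ len r N i := by rw [len_add]; nlinarith
  have h3 : r ≤ len r N r := by rw [len_add]; nlinarith
  intro p q hpq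
  unfold shiftMap
  split_ifs <;> omega

theorem shiftMap_lt {i k q : ℕ} (hik : i < k) (hk : k ≤ r) (hq : q < len r N i) :
    shiftMap r N (len r N r) i k q < len r N k := by
  have h1 : r ≤ len r N i := by rw [len_add]; nlinarith
  have h2 : len r N i + r ≤ len r N k := by
    rw [len_add, len_add]; nlinarith
  unfold shiftMap
  split_ifs <;> omega

theorem shiftMap_lt_two {i k q : ℕ} (hik : i < k) (hk : k ≤ r) (hq : q < len r N r) :
    shiftMap r N (len r N r) i k q < 2 * len r N r := by
  have h3 : r ≤ len r N r := by rw [len_add]; nlinarith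
  have h4 := len_mono r N (show i ≤ r by omega)
  unfold shiftMap
  split_ifs <;> omega

variable {a : ℝ}

theorem pat_pos (hphi : (r : ℝ) * (a ^ (N + 1)) ^ 2 < 1) (ha : 0 < a) {j q : ℕ}
    (hq : q < len r N j) : 0 < pat r N a j q := by
  unfold pat
  split_ifs
  · exact Real.sqrt_pos.2 (by linarith)
  · positivity

theorem pat_nonneg (ha : 0 < a) (j q : ℕ) : 0 ≤ pat r N a j q := by
  unfold pat
  split_ifs <;> positivity

theorem pat_zero {j q : ℕ} (hj : j ≤ r) (hq : len r N j ≤ q) : pat r N a j q = 0 := by
  have : r ≤ len r N j := by rw [len_add]; nlinarith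
  unfold pat
  rw [if_neg (by omega), if_neg (by omega)]

theorem pat_shift_sel {i k q : ℕ} (hik : i < k) (hk : k ≤ r) (h1 : r ≤ q)
    (h2 : q < (2 + N) * r) :
    pat r N a k (shiftMap r N (len r N r) i k q) = a * pat r N a i q := by
  have hli := len_add r N i
  have hlk : len r N i + r ≤ len r N k := by rw [len_add, len_add]; nlinarith
  have e : shiftMap r N (len r N r) i k q = q + r := by
    unfold shiftMap
    rw [if_neg (by omega), if_neg (by omega), if_pos (by omega)]
  rw [e]
  unfold pat
  rw [if_neg (by omega), if_pos (by omega), if_neg (by omega), if_pos (by omega),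
    cls_shift_sel r N (by omega) h1 h2, pow_succ']

theorem pat_shift_keep {i k q : ℕ} (hik : i < k) (hk : k ≤ r) (hq : q < len r N i)
    (hns : ¬ (r ≤ q ∧ q < (2 + N) * r)) :
    pat r N a k (shiftMap r N (len r N r) i k q) = pat r N a i q := by
  have hlk : len r N i + r ≤ len r N k := by rw [len_add, len_add]; nlinarith
  have hli : r ≤ len r N i := by rw [len_add]; nlinarith
  unfold shiftMap
  by_cases h : q < i
  · rw [if_pos h]
    unfold pat
    rw [if_pos (by omega), if_pos h]
  by_cases h' : q < r
  · rw [if_neg h, if_pos h']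
    unfold pat
    rw [if_neg (by omega), if_pos (by omega), if_neg h, if_pos hq,
      cls_lt_two r N (by omega), cls_lt_two r N (by omega)]
  · rw [if_neg h, if_neg h', if_pos hq]
    unfold pat
    rw [if_neg (by omega), if_pos (by omega), if_neg h, if_pos hq,
      cls_top r N (by omega) (by omega), cls_top r N (by omega) (by omega)]

/-- the squared norm of sequence `j` does not depend on `j` -/
theorem sum_pat_sq (hphi : (r : ℝ) * (a ^ (N + 1)) ^ 2 < 1) {j : ℕ} (hj : j ≤ r) :
    ∑ q ∈ Finset.range (len r N r), pat r N a j q ^ 2 =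
      ∑ q ∈ Finset.range ((2 + N) * r), (a ^ cls r N q) ^ 2 := by
  rcases Nat.eq_zero_or_pos r with hr | hr
  · subst hr; simp [len]
  have hjr : j ≤ (2 + N) * r := by nlinarith
  have h1 : ∑ q ∈ Finset.range (len r N r), pat r N a j q ^ 2 =
      ∑ q ∈ Finset.range (len r N j), pat r N a j q ^ 2 := by
    refine (Finset.sum_subset (Finset.range_mono (len_mono r N hj)) ?_).symm
    intro q _ hq
    rw [pat_zero hj (by simpa using hq)]; simp
  rw [h1, len_add, Finset.sum_range_add]
  have h2 : ∀ x ∈ Finset.range (j * r),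
      pat r N a j ((2 + N) * r + x) ^ 2 = (a ^ (N + 1)) ^ 2 := by
    intro x hx
    have := Finset.mem_range.1 hx
    have := len_add r N j
    unfold pat
    rw [if_neg (by omega), if_pos (by omega), cls_top r N hr (by omega)]
  rw [Finset.sum_congr rfl h2]
  have h3 : ∀ x ∈ Finset.range ((2 + N) * r), pat r N a j x ^ 2 =
      (a ^ cls r N x) ^ 2 + (if x < j then -((r : ℝ) * (a ^ (N + 1)) ^ 2) else 0) := by
    intro x hx
    have := Finset.mem_range.1 hx
    have := len_add r N j
    unfold pat
    by_cases h : x < j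
    · rw [if_pos h, if_pos h, Real.sq_sqrt (by linarith), cls_lt_two r N (by omega)]; ring
    · rw [if_neg h, if_neg h, if_pos (by omega)]; ring
  rw [Finset.sum_congr rfl h3, Finset.sum_add_distrib, ← Finset.sum_filter]
  have h4 : (Finset.range ((2 + N) * r)).filter (fun x => x < j) = Finset.range j := by
    ext x; simp; omega
  rw [h4]
  simp
  ring

end Vale.Agent.P058
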