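import Mathlib

/-! The finite Ramsey theorem for sets of fixed size, coloured with finitely many colours. -/

namespace Vale.Agent.P058

theorem finite_ramsey : ∀ (k : ℕ) (κ : Type), Finite κ → ∀ m : ℕ, ∃ M : ℕ,
    ∀ S : Finset ℕ, M ≤ S.card → ∀ c : Finset ℕ → κ,
      ∃ H ⊆ S, H.card = m ∧ ∃ col : κ, ∀ A ⊆ H, A.card = k → c A = col := by
  intro k
  induction k with
  | zero =>
    intro κ _ m
    refine ⟨m, fun S hS c => ?_⟩
    obtain ⟨H, hH, hc⟩ := Finset.exists_subset_card_eq hS
    exact ⟨H, hH, hc, c ∅, fun A _ hA => by rw [Finset.card_eq_zero.1 hA]⟩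
  | succ k ih =>
    intro κ hκ m
    classical
    have : Fintype κ := Fintype.ofFinite κ
    have E : ∀ t : ℕ, ∃ M, ∀ S : Finset ℕ, M ≤ S.card → ∀ c : Finset ℕ → κ,
        ∃ T ⊆ S, T.card = t ∧ ∃ col : ℕ → κ, ∀ A ⊆ T, A.card = k + 1 → ∀ h : A.Nonempty,
          c A = col (A.min' h) := by
      intro t
      induction t with
      | zero =>
        refine ⟨0, fun S _ c => ⟨∅, Finset.empty_subset _, rfl, fun _ => c ∅, ?_⟩⟩
        intro A hA hc h
        rw [Finset.subset_empty.1 hA] at hc
        simp at hc
      | succ t iht =>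
        obtain ⟨Mt, hMt⟩ := iht
        obtain ⟨M, hM⟩ := ih κ hκ Mt
        refine ⟨M + 1, fun S hS c => ?_⟩
        have hne : S.Nonempty := Finset.card_pos.1 (by omega)
        let x := S.min' hne
        obtain ⟨H, hHS, hHc, col0, hcol0⟩ := hM (S.erase x)
          (by rw [Finset.card_erase_of_mem (S.min'_mem hne)]; omega) (fun A => c (insert x A))
        obtain ⟨T, hTH, hTc, col, hcol⟩ := hMt H (by omega) c
        have hxT : x ∉ T := fun h => by simpa using hHS (hTH h)
        refine ⟨insert x T, ?_, by rw [Finset.card_insert_of_notMem hxT, hTc],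
          Function.update col x col0, ?_⟩
        · exact Finset.insert_subset (S.min'_mem hne)
            (fun y hy => Finset.mem_of_mem_erase (hHS (hTH hy)))
        · intro A hA hAc h
          by_cases hx : x ∈ A
          · have hmin : A.min' h = x := by
              apply le_antisymm (A.min'_le x hx)
              apply A.le_min'
              intro y hy
              rcases Finset.mem_insert.1 (hA hy) with rfl | hy'
              · exact le_rfl
              · exact S.min'_le y (Finset.mem_of_mem_erase (hHS (hTH hy')))
            have hsub : A.erase x ⊆ H := fun y hy => by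
              rcases Finset.mem_insert.1 (hA (Finset.mem_of_mem_erase hy)) with rfl | hy'
              · exact absurd hy (Finset.notMem_erase _ _)
              · exact hTH hy'
            have := hcol0 (A.erase x) hsub (by rw [Finset.card_erase_of_mem hx]; omega)
            simp only [Finset.insert_erase hx] at this
            rw [hmin, Function.update_self]; exact this
          · have hAT : A ⊆ T := (Finset.subset_insert_iff_of_notMem hx).1 hA
            have : A.min' h ≠ x := fun e => hx (e ▸ A.min'_mem h)
            rw [Function.update_of_ne this]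
            exact hcol A hAT hAc h
    obtain ⟨M, hM⟩ := E (Fintype.card κ * m + 1)
    refine ⟨M, fun S hS c => ?_⟩
    obtain ⟨T, hTS, hTc, col, hcol⟩ := hM S hS c
    have : Nonempty κ := ⟨c ∅⟩
    obtain ⟨y, -, hy⟩ := Finset.exists_le_card_fiber_of_mul_le_card_of_maps_to
      (f := col) (t := (Finset.univ : Finset κ)) (fun a (_ : a ∈ T) => Finset.mem_univ _)
      Finset.univ_nonempty (n := m) (by simp [hTc])
    obtain ⟨H, hH, hHc⟩ := Finset.exists_subset_card_eq hy
    refine ⟨H, fun a ha => hTS (Finset.mem_filter.1 (hH ha)).1, hHc, y, fun A hA hAc => ?_⟩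
    have h : A.Nonempty := Finset.card_pos.1 (by omega)
    rw [hcol A (fun a ha => (Finset.mem_filter.1 (hH (hA ha))).1) hAc h]
    exact (Finset.mem_filter.1 (hH (hA (A.min'_mem h)))).2

end Vale.Agent.P058
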