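import Mathlib
import Vale.Agent.P058.Defs
import Vale.Agent.P058.Flip
import Vale.Agent.P058.Ramsey
import Vale.Agent.P058.Pattern

/-! Every cyclic kite is Ramsey. -/

namespace Vale.Agent.P058

open Finset

/-- the vector carrying the sequence `F` on the set `A` in increasing order -/
def place (M : ℕ) (A : Finset ℕ) (F : ℕ → ℝ) : Fin M → ℝ :=
  fun p => if (p : ℕ) ∈ A then F ({x ∈ A | x < (p : ℕ)}.card) else 0

theorem place_image {M L : ℕ} {g : ℕ → ℕ} (hg : StrictMonoOn g (Set.Iio L)) (F : ℕ → ℝ)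
    {q : ℕ} (hq : q < L) (p : Fin M) (hp : (p : ℕ) = g q) :
    place M ((Finset.range L).image g) F p = F q := by
  have hm : (p : ℕ) ∈ (Finset.range L).image g :=
    Finset.mem_image.2 ⟨q, Finset.mem_range.2 hq, hp.symm⟩
  unfold place
  rw [if_pos hm]
  have e : {x ∈ (Finset.range L).image g | x < (p : ℕ)} = (Finset.range q).image g := by
    ext x
    simp only [Finset.mem_filter, Finset.mem_image, Finset.mem_range]
    constructor
    · rintro ⟨⟨t, ht, rfl⟩, hlt⟩
      exact ⟨t, (hg.lt_iff_lt (Set.mem_Iio.2 ht) (Set.mem_Iio.2 hq)).1 (hp ▸ hlt), rfl⟩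
    · rintro ⟨t, ht, rfl⟩
      exact ⟨⟨t, lt_trans ht hq, rfl⟩,
        hp ▸ hg (Set.mem_Iio.2 (lt_trans ht hq)) (Set.mem_Iio.2 hq) ht⟩
  rw [e, Finset.card_image_of_injOn]
  · simp
  · exact hg.injOn.mono (fun x hx => Set.mem_Iio.2 (lt_trans (Finset.mem_range.1 hx) hq))

theorem place_of_notMem {M : ℕ} {A : Finset ℕ} (F : ℕ → ℝ) (p : Fin M) (hp : (p : ℕ) ∉ A) :
    place M A F p = 0 := if_neg hp

theorem sum_place {M L : ℕ} {g : ℕ → ℕ} (hg : StrictMonoOn g (Set.Iio L))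
    (hM : ∀ q < L, g q < M) (F : ℕ → ℝ) (G : Fin M → ℝ)
    (h0 : ∀ p : Fin M, (p : ℕ) ∉ (Finset.range L).image g → G p = 0)
    (h1 : ∀ q (hq : q < L), G ⟨g q, hM q hq⟩ = F q) :
    ∑ p, G p = ∑ q ∈ Finset.range L, F q := by
  classical
  have hb : ∑ q ∈ Finset.range L, F q = ∑ q : Fin L, F q := (Fin.sum_univ_eq_sum_range F L).symm
  rw [hb]
  symm
  refine Fintype.sum_of_injective (fun q : Fin L => (⟨g q, hM q q.2⟩ : Fin M)) ?_ _ _ ?_ ?_
  · intro a b hab
    exact Fin.ext (hg.injOn a.2 b.2 (congrArg Fin.val hab))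
  · intro p hp
    apply h0
    intro hmem
    obtain ⟨q, hq, e⟩ := Finset.mem_image.1 hmem
    exact hp ⟨⟨q, Finset.mem_range.1 hq⟩, Fin.ext e⟩
  · intro q
    exact (h1 q q.2).symm

/-- Combinatorial core: in every colouring there are vectors `v ± u`, `v + a u ± w`
with one colour. -/
theorem kite_core {a : ℝ} (ha : 0 < a) (ha1 : a < 1) (r : ℕ) (hr : 0 < r) :
    ∃ (D : Type) (_ : Fintype D), ∀ c : (D → ℝ) → Fin r,
      ∃ (M : ℕ) (ψ : (Fin M → ℝ) → D → ℝ), (∀ x y, sd (ψ x) (ψ y) = sd x y) ∧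
      ∃ u v w : Fin M → ℝ, (∀ p, u p * v p = 0) ∧ (∀ p, u p * w p = 0) ∧ (∀ p, v p * w p = 0) ∧
        ∑ p, u p ^ 2 = 1 ∧ ∑ p, w p ^ 2 = 1 - a ^ 2 ∧
        ∃ col, c (ψ (fun p => v p + u p)) = col ∧ c (ψ (fun p => v p - u p)) = col ∧
          c (ψ (fun p => v p + a * u p + w p)) = col ∧
          c (ψ (fun p => v p + a * u p - w p)) = col := by
  classical
  obtain ⟨N, hN⟩ : ∃ N : ℕ, (r : ℝ) * (a ^ (N + 1)) ^ 2 < 1 := by
    obtain ⟨n, hn⟩ := exists_pow_lt_of_lt_one (show (0 : ℝ) < 1 / r by positivity) ha1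
    refine ⟨n, ?_⟩
    have h1 : a ^ (n + 1) ≤ a ^ n := pow_le_pow_of_le_one ha.le ha1.le (by omega)
    have h2 : a ^ (n + 1) ≤ 1 := pow_le_one₀ ha.le ha1.le
    have h3 : 0 ≤ a ^ (n + 1) := by positivity
    rw [lt_div_iff₀ (by positivity)] at hn
    have : (0 : ℝ) ≤ r := by positivity
    nlinarith [mul_le_mul_of_nonneg_left h2 h3]
  set L := len r N r with hL
  set U := ∑ q ∈ Finset.Ico r ((2 + N) * r), (a ^ cls r N q) ^ 2 with hU
  have hUpos : 0 < U := Finset.sum_pos (fun q _ => by positivity)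
    ⟨r, Finset.mem_Ico.2 ⟨le_rfl, by nlinarith⟩⟩
  set s := (Real.sqrt U)⁻¹ with hs
  have hs0 : 0 < s := by positivity
  have hs2 : s ^ 2 = U⁻¹ := by rw [hs, inv_pow, Real.sq_sqrt hUpos.le]
  let seq : ℕ → ℕ → ℝ := fun j q => s * pat r N a j q
  let V : Finset ℝ :=
    insert 0 ((Finset.range (r + 1) ×ˢ Finset.range L).image fun x => seq x.1 x.2)
  obtain ⟨M, hM⟩ := finite_ramsey L (Fin (r + 1) → Fin r) inferInstance (2 * L)
  obtain ⟨D, fD, I, fI, ψ, iso, col⟩ := signInvariant M V (Fin r)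
  refine ⟨D, fD, fun c => ?_⟩
  obtain ⟨i0, hi0⟩ := col c
  obtain ⟨H, hHS, hHc, C, hC⟩ := hM (Finset.range M) (by simp)
    (fun A j => c (ψ i0 (place M A (seq j))))
  let e : Fin (2 * L) → ℕ := fun t => H.orderEmbOfFin hHc t
  let g : ℕ → ℕ := fun t => if h : t < 2 * L then e ⟨t, h⟩ else t
  have hgm : ∀ t < 2 * L, g t ∈ H := fun t ht => by
    simp only [g, dif_pos ht]; exact Finset.orderEmbOfFin_mem _ _ _
  have hgM : ∀ t < 2 * L, g t < M := fun t ht => Finset.mem_range.1 (hHS (hgm t ht))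
  have hg : StrictMonoOn g (Set.Iio (2 * L)) := by
    intro x hx y hy hxy
    simp only [g, dif_pos (Set.mem_Iio.1 hx), dif_pos (Set.mem_Iio.1 hy)]
    exact (H.orderEmbOfFin hHc).strictMono (show (⟨x, hx⟩ : Fin (2 * L)) < ⟨y, hy⟩ from hxy)
  obtain ⟨i, k, hik, hk, hCik⟩ : ∃ i k, i < k ∧ ∃ hk : k ≤ r, ∀ (hi : i < r + 1),
      C ⟨i, hi⟩ = C ⟨k, by omega⟩ := by
    obtain ⟨x, y, hxy, he⟩ := Fintype.exists_ne_map_eq_of_card_lt C (by simp)
    rcases lt_or_gt_of_ne hxy with h | h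
    · exact ⟨x, y, h, Nat.le_of_lt_succ y.2, fun _ => he⟩
    · exact ⟨y, x, h, Nat.le_of_lt_succ x.2, fun _ => he.symm⟩
  have hir : i < r + 1 := by omega
  set g0 : ℕ → ℕ := fun q => g (shiftMap r N L i k q) with hg0d
  have hsh : ∀ q < L, shiftMap r N L i k q < 2 * L := fun q hq => shiftMap_lt_two hik hk hq
  have hg0 : StrictMonoOn g0 (Set.Iio L) := fun x hx y hy hxy =>
    hg (hsh x hx) (hsh y hy) (shiftMap_strictMono hik hk hxy)
  have hgL : StrictMonoOn g (Set.Iio L) :=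
    hg.mono (Set.Iio_subset_Iio (by omega))
  have hgM0 : ∀ q < L, g0 q < M := fun q hq => hgM _ (hsh q hq)
  have hgML : ∀ q < L, g q < M := fun q hq => hgM q (by omega)
  have hcardA : ∀ {h : ℕ → ℕ}, StrictMonoOn h (Set.Iio L) →
      ((Finset.range L).image h).card = L := fun {h} hh => by
    rw [Finset.card_image_of_injOn (hh.injOn.mono (fun x hx => Finset.mem_range.1 hx))]
    simp
  set A0 := (Finset.range L).image g0 with hA0d
  set A2 := (Finset.range L).image g with hA2d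
  have hA0 : A0 ⊆ H := fun x hx => by
    obtain ⟨q, hq, rfl⟩ := Finset.mem_image.1 hx
    exact hgm _ (hsh q (Finset.mem_range.1 hq))
  have hA2 : A2 ⊆ H := fun x hx => by
    obtain ⟨q, hq, rfl⟩ := Finset.mem_image.1 hx
    exact hgm _ (by have := Finset.mem_range.1 hq; omega)
  set Y0 := place M A0 (seq i) with hY0
  set Y2 := place M A2 (seq k) with hY2
  have hcol : c (ψ i0 Y0) = c (ψ i0 Y2) := by
    have e0 := congrFun (hC A0 hA0 (hcardA hg0)) ⟨i, hir⟩
    have e2 := congrFun (hC A2 hA2 (hcardA hgL)) ⟨k, by omega⟩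
    calc c (ψ i0 Y0) = C ⟨i, hir⟩ := e0
      _ = C ⟨k, by omega⟩ := hCik hir
      _ = c (ψ i0 Y2) := e2.symm
  -- pointwise values
  have hY0q : ∀ q (hq : q < L), Y0 ⟨g0 q, hgM0 q hq⟩ = seq i q := fun q hq =>
    place_image hg0 _ hq _ rfl
  have hY2q : ∀ q (hq : q < L), Y2 ⟨g q, hgML q hq⟩ = seq k q := fun q hq =>
    place_image hgL _ hq _ rfl
  have hlenk : len r N k ≤ L := len_mono r N hk
  have hleni : len r N i ≤ L := len_mono r N (by omega)
  have hsel : (2 + N) * r ≤ len r N i := by rw [len_add]; omega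
  let Sel : Finset ℕ := (Finset.Ico r ((2 + N) * r)).image g0
  have hcases : ∀ p : Fin M, Y0 p = 0 ∨ (∃ q, q < len r N i ∧ (p : ℕ) = g0 q) := by
    intro p
    by_cases hp : (p : ℕ) ∈ A0
    · obtain ⟨q, hq, hqp⟩ := Finset.mem_image.1 hp
      by_cases hql : q < len r N i
      · exact Or.inr ⟨q, hql, hqp.symm⟩
      · left
        rw [hY0, place_image hg0 _ (Finset.mem_range.1 hq) p hqp.symm]
        simp [seq, pat_zero (show i ≤ r by omega) (not_lt.1 hql)]
    · exact Or.inl (place_of_notMem _ _ hp)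
  let u : Fin M → ℝ := fun p => if (p : ℕ) ∈ Sel then Y0 p else 0
  let v : Fin M → ℝ := fun p => if (p : ℕ) ∈ Sel then 0 else Y0 p
  let w : Fin M → ℝ := fun p => if Y0 p = 0 then Y2 p else 0
  have huv0 : ∀ p, v p + u p = Y0 p := fun p => by simp only [u, v]; split_ifs <;> simp
  -- the second vector
  have hY2dec : ∀ p, Y2 p = v p + a * u p + w p := by
    intro p
    rcases hcases p with h0 | ⟨q, hq, hp⟩
    · simp [u, v, w, h0]
    · have hqL : q < L := lt_of_lt_of_le hq hleni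
      have hval : Y0 p = seq i q := place_image hg0 _ hqL p hp
      have hne : Y0 p ≠ 0 := by
        rw [hval]; exact (mul_pos hs0 (pat_pos hN ha hq)).ne'
      have hshk : shiftMap r N L i k q < L := lt_of_lt_of_le (shiftMap_lt hik hk hq) hlenk
      have hval2 : Y2 p = seq k (shiftMap r N L i k q) := place_image hgL _ hshk p hp
      have hmemiff : (p : ℕ) ∈ Sel ↔ (r ≤ q ∧ q < (2 + N) * r) := by
        simp only [Sel, Finset.mem_image, Finset.mem_Ico]
        constructor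
        · rintro ⟨t, ht, hte⟩
          have : t = q := hg0.injOn (Set.mem_Iio.2 (by omega)) (Set.mem_Iio.2 hqL) (hte.trans hp)
          exact this ▸ ht
        · intro h; exact ⟨q, h, hp.symm⟩
      simp only [u, v, w, if_neg hne, hval, hval2, seq, add_zero]
      by_cases hs' : r ≤ q ∧ q < (2 + N) * r
      · rw [if_pos (hmemiff.2 hs'), if_pos (hmemiff.2 hs'), pat_shift_sel hik hk hs'.1 hs'.2]
        ring
      · rw [if_neg (mt hmemiff.1 hs'), if_neg (mt hmemiff.1 hs'), pat_shift_keep hik hk hq hs']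
        ring
  have huv : ∀ p, u p * v p = 0 := fun p => by simp only [u, v]; split_ifs <;> simp
  have huw : ∀ p, u p * w p = 0 := fun p => by
    simp only [u, w]; split_ifs <;> simp_all
  have hvw : ∀ p, v p * w p = 0 := fun p => by
    simp only [v, w]; split_ifs <;> simp_all
  have hsumY0 : ∑ p, Y0 p ^ 2 = s ^ 2 * ∑ q ∈ Finset.range ((2 + N) * r), (a ^ cls r N q) ^ 2 := by
    rw [sum_place hg0 hgM0 (fun q => seq i q ^ 2) (fun p => Y0 p ^ 2)
      (fun p hp => by simp [show Y0 p = 0 from place_of_notMem _ p hp]) (fun q hq => by simp [hY0q q hq]),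
      ← sum_pat_sq hN (show i ≤ r by omega), Finset.mul_sum]
    simp [seq, mul_pow, hL]
  have hsumY2 : ∑ p, Y2 p ^ 2 = s ^ 2 * ∑ q ∈ Finset.range ((2 + N) * r), (a ^ cls r N q) ^ 2 := by
    rw [sum_place hgL hgML (fun q => seq k q ^ 2) (fun p => Y2 p ^ 2)
      (fun p hp => by simp [show Y2 p = 0 from place_of_notMem _ p hp]) (fun q hq => by simp [hY2q q hq]),
      ← sum_pat_sq hN hk, Finset.mul_sum]
    simp [seq, mul_pow, hL]
  have hsumu : ∑ p, u p ^ 2 = 1 := by
    let F : ℕ → ℝ := fun q => if q ∈ Finset.Ico r ((2 + N) * r) then seq i q ^ 2 else 0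
    rw [sum_place hg0 hgM0 F (fun p => u p ^ 2) ?_ ?_]
    · simp only [F]
      rw [← Finset.sum_filter]
      have e : (Finset.range L).filter (fun q => q ∈ Finset.Ico r ((2 + N) * r))
          = Finset.Ico r ((2 + N) * r) := by
        ext q; simp; omega
      have e2 : ∀ q ∈ Finset.Ico r ((2 + N) * r), seq i q ^ 2 = s ^ 2 * (a ^ cls r N q) ^ 2 := by
        intro q hq
        have := Finset.mem_Ico.1 hq
        simp only [seq, pat]
        rw [if_neg (by omega), if_pos (by omega), mul_pow]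
      rw [e, Finset.sum_congr rfl e2, ← Finset.mul_sum, hs2, ← hU, inv_mul_cancel₀ hUpos.ne']
    · intro p hp
      simp only [u, show Y0 p = 0 from place_of_notMem _ p hp]
      split_ifs <;> simp
    · intro q hq
      have hiff : g0 q ∈ Sel ↔ q ∈ Finset.Ico r ((2 + N) * r) := by
        simp only [Sel, Finset.mem_image]
        constructor
        · rintro ⟨t, ht, hte⟩
          have : t = q := hg0.injOn
            (Set.mem_Iio.2 (by have := Finset.mem_Ico.1 ht; omega)) (Set.mem_Iio.2 hq) hte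
          exact this ▸ ht
        · intro h; exact ⟨q, h, rfl⟩
      simp only [u, F, hiff, hY0q q hq]
      split_ifs <;> simp
  have hsumw : ∑ p, w p ^ 2 = 1 - a ^ 2 := by
    have e1 : ∀ p, w p ^ 2 = Y2 p ^ 2 - Y0 p ^ 2 + (1 - a ^ 2) * u p ^ 2 := fun p => by
      rw [hY2dec p, ← huv0 p]
      linear_combination (2 - 2 * a) * huv p - 2 * a * huw p - 2 * hvw p
    rw [Finset.sum_congr rfl (fun p _ => e1 p), Finset.sum_add_distrib, Finset.sum_sub_distrib,
      ← Finset.mul_sum, hsumY0, hsumY2, hsumu]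
    ring
  have hV0 : ∀ {A : Finset ℕ} {j : ℕ}, j ≤ r → A.card = L →
      ∀ p, place M A (seq j) p ∈ V := by
    intro A j hj hc p
    unfold place
    split_ifs with h
    · apply Finset.mem_insert_of_mem
      refine Finset.mem_image.2 ⟨(j, _), Finset.mem_product.2 ⟨Finset.mem_range.2
        (Nat.lt_succ_of_le hj), Finset.mem_range.2 ?_⟩, rfl⟩
      rw [← hc]
      exact Finset.card_lt_card (Finset.filter_ssubset.2 ⟨_, h, by simp⟩)
    · exact Finset.mem_insert_self _ _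
  refine ⟨M, ψ i0, iso i0, u, v, w, huv, huw, hvw, hsumu, hsumw, c (ψ i0 Y0), ?_, ?_, ?_, ?_⟩
  · rw [funext huv0]
  · refine hi0 Y0 _ (hV0 (by omega) (hcardA hg0)) (fun p => ?_)
    simp only [u, v]; split_ifs <;> simp
  · rw [← funext hY2dec, hcol]
  · rw [hcol]
    refine hi0 Y2 _ (hV0 hk (hcardA hgL)) (fun p => ?_)
    rw [hY2dec p]
    rcases eq_or_ne (w p) 0 with h | h
    · rw [h]; simp
    · have h1 : u p = 0 := by
        rcases mul_eq_zero.1 (huw p) with h' | h'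
        · exact h'
        · exact absurd h' h
      have h2 : v p = 0 := by
        rcases mul_eq_zero.1 (hvw p) with h' | h'
        · exact h'
        · exact absurd h' h
      simp [h1, h2]

theorem dist_sq_eq {n : ℕ} (x y : EuclideanSpace ℝ (Fin n)) :
    dist x y ^ 2 = ∑ i, (x i - y i) ^ 2 := by
  rw [EuclideanSpace.dist_eq, Real.sq_sqrt (Finset.sum_nonneg fun i _ => sq_nonneg _)]
  simp [Real.dist_eq, sq_abs]

theorem kite_isRamsey {a : ℝ} (ha : 0 < a) (ha1 : a < 1) : IsRamsey (kite a) := by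
  refine ⟨?_, ⟨_, Or.inl rfl⟩, fun r hr => ?_⟩
  · simp [kite]
  obtain ⟨D, fD, hD⟩ := kite_core ha ha1 r (by omega)
  let n := Fintype.card (D ⊕ Unit)
  let eD : D ⊕ Unit ≃ Fin n := Fintype.equivFin _
  refine ⟨n, Fintype.card_pos, fun c => ?_⟩
  let emb : (D → ℝ) → EuclideanSpace ℝ (Fin n) :=
    fun z => WithLp.toLp 2 (fun t => Sum.elim z (fun _ => (0 : ℝ)) (eD.symm t))
  have hemb : ∀ z z', dist (emb z) (emb z') ^ 2 = sd z z' := by
    intro z z'
    rw [dist_sq_eq, ← eD.sum_comp]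
    simp [emb, Fintype.sum_sum_type, sd]
  obtain ⟨M, ψ, iso, u, v, w, huv, huw, hvw, hu, hw, col, h1, h2, h3, h4⟩ := hD (c ∘ emb)
  set b := Real.sqrt (1 - a ^ 2) with hb
  have hb2 : b ^ 2 = 1 - a ^ 2 := Real.sq_sqrt (by nlinarith)
  have hb0 : 0 < b := Real.sqrt_pos.2 (by nlinarith)
  refine ⟨fun x => emb (ψ (fun p => v p + x 0 * u p + x 1 / b * w p)), ?_, col, ?_⟩
  · intro x _ y _
    rw [← sq_eq_sq₀ dist_nonneg dist_nonneg, hemb, iso, dist_sq_eq x y, Fin.sum_univ_two, sd]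
    have e : ∀ p, (v p + x 0 * u p + x 1 / b * w p - (v p + y 0 * u p + y 1 / b * w p)) ^ 2
        = (x 0 - y 0) ^ 2 * u p ^ 2 + ((x 1 - y 1) / b) ^ 2 * w p ^ 2 := fun p => by
      linear_combination (2 * (x 0 - y 0) * ((x 1 - y 1) / b)) * huw p
    rw [Finset.sum_congr rfl (fun p _ => e p), Finset.sum_add_distrib, ← Finset.mul_sum,
      ← Finset.mul_sum, hu, hw, ← hb2]
    field_simp
  · intro x hx
    simp only [kite, Set.mem_insert_iff, Set.mem_singleton_iff] at hx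
    rcases hx with rfl | rfl | rfl | rfl
    · simpa [Function.comp] using h1
    · simpa [Function.comp, sub_eq_add_neg] using h2
    · simpa [Function.comp, ← hb, div_self hb0.ne'] using h3
    · simpa [Function.comp, ← hb, div_self hb0.ne', neg_div, ← sub_eq_add_neg] using h4

end Vale.Agent.P058
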