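import Mathlib
import Vale.Agent.P058.Defs
import Vale.Agent.P058.KiteRamsey

/-! Kites with transcendental parameter are not subtransitive. -/

namespace Vale.Agent.P058

open Polynomial

/-- The algebraic core: a vector killed by `(1+a)P₀ + (1-a)P₁ - P₂ - P₃` for four permutations
and transcendental `a` is fixed by `P₀⁻¹P₁`. -/
theorem perm_relation {X : Type} [Fintype X] (π : Fin 4 → Equiv.Perm X) {a : ℝ}
    (ha : Transcendental ℚ a) (f : X → ℝ)
    (h : ∀ z, (1 + a) * f (π 0 z) + (1 - a) * f (π 1 z) - f (π 2 z) - f (π 3 z) = 0) :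
    ∀ z, f (π 0 z) = f (π 1 z) := by
  classical
  intro z0
  by_contra hne
  let K : IntermediateField ℚ ℝ := IntermediateField.adjoin ℚ {a}
  have haK : a ∈ K := IntermediateField.mem_adjoin_simple_self ℚ a
  let aK : K := ⟨a, haK⟩
  -- a `K`-linear functional separating the two values
  obtain ⟨φ, hφ⟩ : ∃ φ : ℝ →ₗ[K] K, φ (f (π 0 z0) - f (π 1 z0)) ≠ 0 := by
    by_contra hall
    push_neg at hall
    exact sub_ne_zero.2 hne ((Module.forall_dual_apply_eq_zero_iff K _).1 hall)
  let g : X → K := fun z => φ (f z)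
  have hg : ∀ z, (1 + aK) * g (π 0 z) + (1 - aK) * g (π 1 z) - g (π 2 z) - g (π 3 z) = 0 := by
    intro z
    have := congrArg φ (h z)
    have e : ∀ (k : K) (x : ℝ), φ ((k : ℝ) * x) = k * φ x := fun k x => by
      rw [← smul_eq_mul, ← smul_eq_mul, ← map_smul]; rfl
    have e1 : ((1 + aK : K) : ℝ) = 1 + a := by simp [aK]
    have e2 : ((1 - aK : K) : ℝ) = 1 - a := by simp [aK]
    simp only [map_sub, map_add, map_zero, ← e1, ← e2, e] at this
    exact this
  have hrep : ∀ z, ∃ rs : ℚ[X] × ℚ[X], aeval a rs.2 ≠ 0 ∧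
      (g z : ℝ) = aeval a rs.1 / aeval a rs.2 := by
    intro z
    obtain ⟨r, s, hrs⟩ := (IntermediateField.mem_adjoin_simple_iff ℚ (g z : ℝ)).1 (g z).2
    by_cases hs : aeval a s = 0
    · exact ⟨(0, 1), by simp, by simp [hrs, hs]⟩
    · exact ⟨(r, s), hs, hrs⟩
  choose rs hs hrs using hrep
  let F : X → ℚ[X] := fun z => (rs z).1 * ∏ y ∈ Finset.univ.erase z, (rs y).2
  let Q : ℝ := ∏ y : X, aeval a (rs y).2
  have hQ : Q ≠ 0 := Finset.prod_ne_zero_iff.2 (fun y _ => hs y)
  have hF : ∀ z, aeval a (F z) = (g z : ℝ) * Q := by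
    intro z
    simp only [F, Q, map_mul, map_prod, hrs z]
    rw [← Finset.mul_prod_erase Finset.univ (fun y => aeval a (rs y).2) (Finset.mem_univ z)]
    field_simp [hs z]
  have hpoly : ∀ z, (1 + Polynomial.X) * F (π 0 z) + (1 - Polynomial.X) * F (π 1 z)
      - F (π 2 z) - F (π 3 z) = 0 := by
    intro z
    apply (transcendental_iff_injective.1 ha)
    have hz := congrArg (fun k : K => (k : ℝ)) (hg z)
    simp [aK] at hz
    simp only [map_sub, map_add, map_mul, map_one, map_zero, aeval_X, hF]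
    linear_combination Q * hz
  have hG : F (π 0 z0) - F (π 1 z0) ≠ 0 := by
    intro h0
    have := congrArg (aeval a) h0
    simp only [map_sub, map_zero, hF, ← sub_mul, mul_eq_zero] at this
    rcases this with h1 | h1
    · apply hφ
      rw [map_sub]
      exact Subtype.ext (by simpa [g] using h1)
    · exact hQ h1
  -- choose a real parameter bigger than one which is not a root
  obtain ⟨t, ht1, ht⟩ : ∃ t : ℝ, 1 < t ∧ aeval t (F (π 0 z0) - F (π 1 z0)) ≠ 0 := by
    obtain ⟨t, ht, htG⟩ := (Set.Ioi_infinite (1 : ℝ)).exists_notMem_finite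
      (Polynomial.finite_setOfPred_isRoot (p := (F (π 0 z0) - F (π 1 z0)).map (algebraMap ℚ ℝ))
        (Polynomial.map_ne_zero hG))
    exact ⟨t, ht, by simpa [IsRoot, aeval_def, eval_map] using htG⟩
  let G : X → ℝ := fun z => aeval t (F z)
  have hrel : ∀ z, (1 + t) * G (π 0 z) + (1 - t) * G (π 1 z) = G (π 2 z) + G (π 3 z) := by
    intro z
    have := congrArg (aeval t) (hpoly z)
    simp only [map_sub, map_add, map_mul, map_one, map_zero, aeval_X] at this
    linarith
  have hnorm : ∀ k, ∑ z, G (π k z) ^ 2 = ∑ z, G z ^ 2 := fun k =>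
    Equiv.sum_comp (π k) (fun z => G z ^ 2)
  have hsq : ∀ z, (t ^ 2 - 1) * (G (π 0 z) - G (π 1 z)) ^ 2 =
      2 * G (π 2 z) ^ 2 + 2 * G (π 3 z) ^ 2 - (G (π 2 z) - G (π 3 z)) ^ 2
        - 2 * G (π 0 z) ^ 2 - 2 * G (π 1 z) ^ 2
        - (2 * t * G (π 0 z) ^ 2 - 2 * t * G (π 1 z) ^ 2) := by
    intro z
    linear_combination ((1 + t) * G (π 0 z) + (1 - t) * G (π 1 z) + G (π 2 z) + G (π 3 z)) * hrel z
  have hle : ∑ z, (t ^ 2 - 1) * (G (π 0 z) - G (π 1 z)) ^ 2 ≤ 0 := by
    rw [Finset.sum_congr rfl (fun z _ => hsq z)]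
    simp only [Finset.sum_sub_distrib, Finset.sum_add_distrib, ← Finset.mul_sum, hnorm]
    have : 0 ≤ ∑ z, (G (π 2 z) - G (π 3 z)) ^ 2 := Finset.sum_nonneg fun z _ => sq_nonneg _
    linarith
  have hpos : 0 < ∑ z, (t ^ 2 - 1) * (G (π 0 z) - G (π 1 z)) ^ 2 := by
    have ht2 : 0 < t ^ 2 - 1 := by nlinarith
    refine Finset.sum_pos' (fun z _ => by positivity) ⟨z0, Finset.mem_univ _, ?_⟩
    have : G (π 0 z0) - G (π 1 z0) ≠ 0 := by simpa [G] using ht
    positivity
  linarith

theorem kite_not_subtransitive {a : ℝ} (ha : 0 < a) (ha1 : a < 1) (htr : Transcendental ℚ a) :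
    ¬ IsSubtransitive (kite a) := by
  rintro ⟨n, X, hX, htrans, f, hiso, hmem⟩
  classical
  set b := Real.sqrt (1 - a ^ 2) with hb
  have hb2 : b ^ 2 = 1 - a ^ 2 := Real.sq_sqrt (by nlinarith)
  let P : Fin 4 → EuclideanSpace ℝ (Fin 2) := ![!₂[1, 0], !₂[-1, 0], !₂[a, b], !₂[a, -b]]
  have hP : ∀ k, P k ∈ kite a := by
    intro k; fin_cases k <;> simp [P, kite, ← hb]
  let y : Fin 4 → EuclideanSpace ℝ (Fin n) := fun k => f (P k)
  have hy : ∀ k, y k ∈ X := fun k => hmem _ (hP k)
  let lam : Fin 4 → ℝ := ![1 + a, 1 - a, -1, -1]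
  have hd : ∀ k l, dist (y k) (y l) ^ 2 = ∑ i, (P k i - P l i) ^ 2 := fun k l => by
    rw [show dist (y k) (y l) = dist (P k) (P l) from hiso _ (hP k) _ (hP l), dist_sq_eq]
  -- the affine dependence survives the congruence
  have hdep : ∀ i, ∑ k, lam k * y k i = 0 := by
    have h0 : ∑ i, (∑ k, lam k * y k i) ^ 2 = 0 := by
      have e : ∀ i, (∑ k, lam k * y k i) ^ 2 =
          -(1 / 2) * ∑ k, ∑ l, lam k * lam l * (y k i - y l i) ^ 2 := by
        intro i
        simp only [Fin.sum_univ_four, lam]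
        simp
        ring
      rw [Finset.sum_congr rfl (fun i _ => e i), ← Finset.mul_sum]
      rw [Finset.sum_comm]
      simp_rw [Finset.sum_comm (γ := Fin n), ← Finset.mul_sum, ← dist_sq_eq, hd]
      simp [Fin.sum_univ_four, Fin.sum_univ_two, P, lam]
      linear_combination (0 : ℝ) * hb2
    intro i
    have := (Finset.sum_eq_zero_iff_of_nonneg (fun i _ => sq_nonneg _)).1 h0 i (Finset.mem_univ i)
    simpa using this
  have hzero : ∀ z : EuclideanSpace ℝ (Fin n), ∑ k, lam k * dist (y k) z ^ 2 = 0 := by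
    intro z
    have e : ∑ k, lam k * dist (y k) z ^ 2 = ∑ k, lam k * dist (y k) (y 0) ^ 2 := by
      simp only [dist_sq_eq, Finset.mul_sum]
      rw [Finset.sum_comm]
      conv_rhs => rw [Finset.sum_comm]
      refine Finset.sum_congr rfl fun i _ => ?_
      have := hdep i
      simp only [Fin.sum_univ_four, lam] at this ⊢
      simp at this ⊢
      linear_combination (-2 * (z i - y 0 i)) * this
    rw [e]
    simp [hd, Fin.sum_univ_four, Fin.sum_univ_two, P, lam]
    linear_combination (-2) * hb2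
  have : Fintype X := hX.fintype
  have hg : ∀ k, ∃ g : EuclideanSpace ℝ (Fin n) ≃ᵢ EuclideanSpace ℝ (Fin n),
      g '' X = X ∧ g (y 0) = y k := fun k => htrans _ (hy 0) _ (hy k)
  choose g hgX hgy using hg
  have hgs : ∀ k (z : X), (g k).symm z.1 ∈ X := by
    intro k z
    obtain ⟨w, hw, hwz⟩ : z.1 ∈ (g k) '' X := by
      rw [hgX k]
      exact z.2
    rw [← hwz, IsometryEquiv.symm_apply_apply]
    exact hw
  let π : Fin 4 → Equiv.Perm X := fun k => Equiv.ofBijective
    (fun z => (⟨(g k).symm z.1, hgs k z⟩ : X))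
    ((Finite.injective_iff_bijective).1 (fun z w h => Subtype.ext
      ((g k).symm.injective (congrArg Subtype.val h))))
  let F : X → ℝ := fun z => dist (y 0) z.1 ^ 2
  have hF : ∀ k z, F (π k z) = dist (y k) z.1 ^ 2 := by
    intro k z
    show dist (y 0) ((g k).symm z.1) ^ 2 = _
    rw [← (g k).dist_eq, IsometryEquiv.apply_symm_apply, hgy]
  have := perm_relation π htr F (fun z => by
    have := hzero z.1
    simp only [Fin.sum_univ_four, lam] at this
    simp at this
    simp only [hF]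
    linarith) ⟨y 0, hy 0⟩
  rw [hF, hF, hd, hd] at this
  simp [Fin.sum_univ_two, P] at this
  norm_num at this

theorem exists_transcendental_Ioo : ∃ a : ℝ, 0 < a ∧ a < 1 ∧ Transcendental ℚ a := by
  have hcount : {x : ℝ | IsAlgebraic ℚ x}.Countable := Algebraic.countable ℚ ℝ
  obtain ⟨a, ha, hna⟩ : ∃ a ∈ Set.Ioo (0 : ℝ) 1, ¬ IsAlgebraic ℚ a := by
    by_contra hall
    push_neg at hall
    exact (Set.Ioo.infinite (show (0 : ℝ) < 1 by norm_num)) |> fun _ =>
      absurd (hcount.mono hall) (by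
        rw [← Cardinal.le_aleph0_iff_set_countable, Cardinal.mk_Ioo_real (by norm_num), not_le]
        exact Cardinal.aleph0_lt_continuum)
  exact ⟨a, ha.1, ha.2, hna⟩

end Vale.Agent.P058
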